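import Vale.Agent.Lib.P344.Elim3

/-!
# P344: every linear circuit for `F_n` has at least `4 n - n / q(n) - d(n) - 3` gates

Here `q(n)` is the least prime factor of `n` and `d(n)` the number of divisors of `n`.
For every `n ≥ 2` and every linear circuit `C` (gates `u + v`, `u - v`, `c • u` with arbitrary
complex `c`, unrestricted depth) computing `F_n`:
* `C` has at least `3 n - n / q(n) - 3` addition and subtraction gates,
* `C` has at least `n - d(n)` scalar gates,
* hence `C` has at least `4 n - n / q(n) - d(n) - 3` gates; this is at least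
  `7 n / 2 - d(n) - 3` for every `n`, and equals `4 n - 6` for prime `n`.
-/

namespace Vale.Agent.Results.P344.EliminationBound

open Vale.Agent.P344

theorem result : ∀ n : ℕ, 2 ≤ n → ∀ C : List Gate, Computes n C →
    3 * n ≤ addCount C + n / n.minFac + 3 ∧
    n ≤ smulCount C + n.divisors.card ∧
    4 * n ≤ C.length + n / n.minFac + n.divisors.card + 3 ∧
    7 * n ≤ 2 * C.length + 2 * n.divisors.card + 6 ∧
    (n.Prime → 4 * n ≤ C.length + 6) := by
  intro n hn C h
  obtain ⟨h1, h2, h3⟩ := main_bound_strong hn C h
  refine ⟨h1, h2, h3, ?_, ?_⟩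
  · have hmf : 2 ≤ n.minFac := (Nat.minFac_prime (by omega)).two_le
    have hdiv : n / n.minFac ≤ n / 2 := Nat.div_le_div_left hmf (by norm_num)
    omega
  · intro hp
    rw [hp.minFac_eq, Nat.div_self hp.pos, hp.divisors,
      Finset.card_pair hp.one_lt.ne] at h3
    omega

end Vale.Agent.Results.P344.EliminationBound
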