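import Vale.Agent.Lib.P344.Main

/-!
# P344: every linear circuit for the discrete Fourier transform `F_n` has at least
`3 n - 2 - d(n)` gates

For every `n ≥ 2` and every linear circuit `C` (gates `u + v`, `u - v`, `c • u` with arbitrary
complex `c`, unrestricted depth) computing `F_n`:
* `C` has at least `2 n - 2` addition and subtraction gates,
* `C` has at least `n - d(n)` scalar gates, `d(n)` the number of divisors of `n`,
* hence `C` has at least `3 n - 2 - d(n)` gates.
-/

namespace Vale.Agent.Results.P344.LinearLowerBound

open Vale.Agent.P344

theorem result : ∀ n : ℕ, 2 ≤ n → ∀ C : List Gate, Computes n C →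
    2 * n ≤ addCount C + 2 ∧ n ≤ smulCount C + n.divisors.card ∧
      3 * n ≤ C.length + 2 + n.divisors.card :=
  fun _ hn C h => main_bound hn C h

end Vale.Agent.Results.P344.LinearLowerBound
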